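import Mathlib
import Vale.Agent.P007.Proof

namespace Vale.Agent.Results.P007.CompositeDegree

open NumberField Module MeasureTheory Vale.Agent.P007

/-- In every composite degree `n ≥ 4` the torus packets of maximal orders of totally real
fields with discriminant tending to infinity need not equidistribute. -/
theorem result : ∀ n : ℕ, 4 ≤ n → ¬ n.Prime →
    ∃ (K : ℕ → Type) (_ : ∀ i, Field (K i)) (_ : ∀ i, NumberField (K i)),
      (∀ i, IsTotallyReal (K i) ∧ finrank ℚ (K i) = n ∧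
        Nonempty (Fin n ≃ (K i →+* ℝ))) ∧
      Filter.Tendsto (fun i => |discr (K i)|) Filter.atTop Filter.atTop ∧
      (∀ i (σ : Fin n ≃ (K i →+* ℝ)), (packet (K i) σ).Nonempty) ∧
      ∃ f : X n → ℝ, Continuous f ∧ HasCompactSupport f ∧
        (∀ x, f x ∈ Set.Icc (0 : ℝ) 1) ∧ (∃ x, f x = 1) ∧
        (∀ i (σ : Fin n ≃ (K i →+* ℝ)), ∀ x ∈ packet (K i) σ, f x = 0) ∧
        (∀ m : Measure (X n), IsProbabilityMeasure m → IsInvariant m → 0 < ∫ x, f x ∂m) ∧
        (∀ (σ : ∀ i, Fin n ≃ (K i →+* ℝ)) (μ : ℕ → Measure (X n)),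
          (∀ i, IsProbabilityMeasure (μ i) ∧ μ i (packet (K i) (σ i))ᶜ = 0) →
          ∀ m : Measure (X n), IsProbabilityMeasure m → IsInvariant m →
            ¬ Filter.Tendsto (fun i => ∫ x, f x ∂μ i) Filter.atTop (nhds (∫ x, f x ∂m))) :=
  fun n hn hnp => packets_not_equidistributed n hn hnp

end Vale.Agent.Results.P007.CompositeDegree
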